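import Crest.Agent.X212.Prf6.Loc
import Crest.Agent.X212.Glue52.Two

/-!
# Row 212, layer H, PERF (helper52): `Cap` (cutting along annuli and collapsing the sides)

* `pe b` polar coordinates on a half annulus, `lg b` its section;  `or_loc` :
  orientations from positive covers;  `cap : Cap`.
-/

set_option autoImplicit false
set_option linter.unusedSectionVars false
noncomputable section
open Set Filter Topology Function Complex Metric
open scoped ContDiff Manifold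
open Crest.Agent.X212.Prf6 Crest.Agent.X212.Glue52

namespace Crest.Agent.X212.Cap52

/-! ### polar coordinates -/

/-- the sign of a side -/
def sg (b : Bool) : ℝ := cond b 1 (-1)

theorem sg_sq (b : Bool) : sg b * sg b = 1 := by cases b <;> simp [sg]

theorem sg_ne (b : Bool) : sg b ≠ 0 := left_ne_zero_of_mul_eq_one (sg_sq b)

theorem exists_sg {t : ℝ} (h : t ≠ 0) : ∃ b, 0 < sg b * t :=
  h.lt_or_gt.elim (fun k => ⟨false, by simpa [sg]⟩) fun k => ⟨true, by simpa [sg]⟩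

theorem sg_eq {b b' : Bool} {t : ℝ} (h : 0 < sg b * t) (h' : 0 < sg b' * t) : b = b' := by
  cases b <;> cases b' <;> simp [sg] at h h' ⊢ <;> linarith

/-- polar coordinates -/
def pe (b : Bool) (z : ℂ) : ℂ := (sg b * z.im : ℝ) * exp (2 * Real.pi * I * (-sg b * z.re : ℝ))

/-- a section of `pe` -/
def lg (b : Bool) (w : ℂ) : ℂ := ⟨-sg b * (arg w / (2 * Real.pi)), sg b * ‖w‖⟩

theorem lg_im (b : Bool) (w : ℂ) : sg b * (lg b w).im = ‖w‖ := by
  rw [lg, ← mul_assoc, sg_sq, one_mul]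

theorem lg_pos (b : Bool) {w : ℂ} (h : w ≠ 0) : 0 < sg b * (lg b w).im := lg_im b w ▸ norm_pos_iff.2 h

theorem pe_lg (b : Bool) (w : ℂ) : pe b (lg b w) = w := by
  rw [pe, lg_im, lg, ← mul_assoc, neg_mul_neg, sg_sq, one_mul]
  convert norm_mul_exp_arg_mul_I w using 3
  have := Real.pi_ne_zero
  push_cast
  field_simp

theorem norm_pe (b : Bool) (z : ℂ) : ‖pe b z‖ = |z.im| := by
  rw [pe, norm_mul, norm_exp_2pi, mul_one, norm_real, Real.norm_eq_abs, abs_mul]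
  cases b <;> simp [sg]

theorem pe_ne {b : Bool} {z : ℂ} (h : 0 < sg b * z.im) : pe b z ≠ 0 := by
  rw [← norm_pos_iff, norm_pe, abs_pos]
  exact right_ne_zero_of_mul h.ne'

theorem pe_per (b : Bool) (z : ℂ) (n : ℤ) : pe b (z + n) = pe b z := by
  rw [pe, pe, add_im, intCast_im, add_zero, add_re, intCast_re]
  congr 1
  refine exp_eq_exp_iff_exists_int.2 ?_
  cases b
  · exact ⟨n, by simp [sg]; ring⟩
  · exact ⟨-n, by simp [sg]; ring⟩

theorem pe_inj {b : Bool} {z z' : ℂ} (h : 0 < sg b * z.im) (h' : 0 < sg b * z'.im) (e : pe b z = pe b z') :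
    ∃ n : ℤ, z' = z + n := by
  have h1 : sg b * z.im = sg b * z'.im := by
    have := congrArg norm e
    rwa [pe, pe, norm_mul, norm_mul, norm_exp_2pi, norm_exp_2pi, mul_one, mul_one, norm_real, norm_real,
      Real.norm_of_nonneg h.le, Real.norm_of_nonneg h'.le] at this
  rw [pe, pe, h1] at e
  obtain ⟨n, hn⟩ := exp_eq_exp_iff_exists_int.1 (mul_left_cancel₀ (ofReal_ne_zero.2 h'.ne') e)
  rw [mul_comm (n : ℂ), ← mul_add] at hn
  have h2 := congrArg re (mul_left_cancel₀ two_pi_I_ne_zero hn)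
  have h3 := mul_left_cancel₀ (sg_ne b) h1
  rw [add_re, ofReal_re, ofReal_re, intCast_re] at h2
  cases b
  · exact ⟨-n, Complex.ext (by simp [sg] at h2 ⊢; linarith) (by simp [h3])⟩
  · exact ⟨n, Complex.ext (by simp [sg] at h2 ⊢; linarith) (by simp [h3])⟩

theorem pm_pe {b : Bool} {z : ℂ} (h : 0 < sg b * z.im) : Pm oC oC (pe b) z := by
  have k1 : ∀ (c : ℝ) (l : ℂ →L[ℝ] ℝ), HasFDerivAt (fun w : ℂ => ((c * l w : ℝ) : ℂ))
      (ofRealCLM.comp (c • l)) z := fun c l => (ofRealCLM.comp (c • l)).hasFDerivAt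
  have k2 := (k1 (sg b) imCLM).mul (((k1 (-sg b) reCLM).const_mul (2 * Real.pi * I)).cexp)
  have k3 : ∀ (c : ℝ) (l : ℂ →L[ℝ] ℝ), ContDiff ℝ ∞ (fun w : ℂ => ((c * l w : ℝ) : ℂ)) :=
    fun c l => (ofRealCLM.comp (c • l)).contDiff
  refine pm_C isOpen_univ trivial ((k3 (sg b) imCLM).mul
    (contDiff_const.mul (k3 (-sg b) reCLM)).cexp).contDiffOn ?_
  have k4 := norm_exp_2pi (-sg b * z.re)
  rw [show fderiv ℝ (pe b) z = _ from k2.fderiv, det_C]
  simp only [reCLM_apply, imCLM_apply] at k4 ⊢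
  generalize exp (2 * Real.pi * I * (-sg b * z.re : ℝ)) = E at k4 ⊢
  have k5 : E.re * E.re + E.im * E.im = 1 := by rw [← normSq_apply, normSq_eq_norm_sq, k4, one_pow]
  have k6 := mul_pos Real.two_pi_pos h
  simp
  linear_combination k6 - (2 * Real.pi * (sg b * z.im) * (sg b * sg b)) * k5 -
    2 * Real.pi * (sg b * z.im) * sg_sq b

/-! ### orientations -/

section or

variable {M N : Type*} [TopologicalSpace M] [ChartedSpace ℂ M] [IsManifold IC ∞ M]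
  [TopologicalSpace N] [ChartedSpace ℂ N] [IsManifold IC ∞ N]

theorem dt_chart (x : N) : dt (chartAt ℂ x) x = 1 := by
  unfold dt
  have h := mfderiv_extChartAt_self (I := IC) (x := x)
  rw [show mfderiv IC IC (chartAt ℂ x) x = ContinuousLinearMap.id ℝ ℂ from h]
  exact LinearMap.det_id

/-- the axiom of an orientation through a local diffeomorphism -/
theorem or_loc (o : Or M) {s : N → ℝ} {q : M → N} {a : M} (hq : IsLocalDiffeomorphAt IC IC ∞ q a)
    (h : ∀ᶠ b in 𝓝 a, 0 < o.s b * s (q b) * dt q b) :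
    ∀ᶠ y in 𝓝 (q a), 0 < s (q a) * s y * dt (chartAt ℂ (q a)) y := by
  have k1 := Cyl58.ld_comp (ld_chart (q a) (mem_chart_source ℂ _)) hq
  have k2 := ((Continuous.prodMk_right (0 : ℝ)).tendsto a).eventually (sign_param (F := ℝ) o oC
    (f := fun p => chartAt ℂ (q a) (q p.2)) (p₀ := (0, a))
    (k1.contMDiffAt.comp (f := Prod.snd) ((0 : ℝ), a) contMDiffAt_snd) (dt_ne k1))
  have k3 : ∀ b, IsLocalDiffeomorphAt IC IC ∞ q b → q b ∈ (chartAt ℂ (q a)).source →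
      dt (fun x => chartAt ℂ (q a) (q x)) b = dt (chartAt ℂ (q a)) (q b) * dt q b := fun b hb hs =>
    dt_comp ((ld_chart _ hs).mdifferentiableAt (by simp)) (hb.mdifferentiableAt (by simp))
  have k4 : map q (𝓝 a) = 𝓝 (q a) := by
    obtain ⟨Φ, hx, hΦ⟩ := hq
    have e : q =ᶠ[𝓝 a] Φ := eventually_of_mem (Φ.open_source.mem_nhds hx) hΦ
    rw [map_congr e, e.self_of_nhds]
    exact Φ.toOpenPartialHomeomorph.map_nhds_eq hx
  rw [← k4, eventually_map]
  filter_upwards [h, k2, ld_eventually hq, hq.contMDiffAt.continuousAt.preimage_mem_nhds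
    (chart_source_mem_nhds ℂ (q a))] with b h1 h2 h3 h4
  simp only [oC, id, k3 a hq (mem_chart_source ℂ _), k3 b h3 h4, dt_chart, mul_one, one_mul] at h2
  have h5 := mul_pos (mul_pos h.self_of_nhds h1) h2
  have h6 : 0 < (o.s a * dt q a * (o.s b * dt q b)) ^ 2 :=
    sq_pos_of_ne_zero (mul_ne_zero (mul_ne_zero (o.ne a) (dt_ne hq)) (mul_ne_zero (o.ne b) (dt_ne h3)))
  exact (pos_iff_pos_of_mul_pos (h5.trans_eq (by ring) : 0 < (o.s a * dt q a * (o.s b * dt q b)) ^ 2 *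
    (s (q a) * s (q b) * dt (chartAt ℂ (q a)) (q b)))).1 h6

end or

/-! ### the capped surface -/

/-- disjoint annuli -/
structure Dat (X : Sf) (ι : Type) where
  A : ι → ℂ → X.R
  an : ∀ i, An X.o (A i)
  dj : ∀ i k, i ≠ k → Disjoint (range (A i)) (range (A k))

namespace Dat

variable {X : Sf} {ι : Type} [Fintype ι] (T : Dat X ι)

/-- the union of the cores -/
def Z : Set X.R := ⋃ i, core (T.A i)

theorem isClosed_Z : IsClosed T.Z := isClosed_iUnion_of_finite fun i => (T.an i).isCompact_core.isClosed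

theorem eq_of {i k : ι} {z w : ℂ} (e : T.A i z = T.A k w) : i = k :=
  by_contra fun h => disjoint_left.1 (T.dj i k h) ⟨z, rfl⟩ ⟨w, e.symm⟩

theorem mem_Z {i : ι} {z : ℂ} : T.A i z ∈ T.Z ↔ z.im = 0 := by
  refine ⟨fun h => ?_, fun h => mem_iUnion.2 ⟨i, mem_core h⟩⟩
  obtain ⟨k, t, e⟩ := mem_iUnion.1 h
  obtain rfl := T.eq_of e
  exact (T.an k).mem_core.1 ⟨t, e⟩

theorem not_Z {i : ι} {b : Bool} {z : ℂ} (h : 0 < sg b * z.im) : T.A i z ∉ T.Z :=
  fun k => right_ne_zero_of_mul h.ne' (T.mem_Z.1 k)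

/-- the complement of the cores -/
def U : TopologicalSpace.Opens X.R := ⟨T.Zᶜ, T.isClosed_Z.isOpen_compl⟩

/-- a side of an annulus in polar coordinates -/
def d (p : ι × Bool) (w : ℂ) : X.R := T.A p.1 (lg p.2 w)

theorem d_pe (p : ι × Bool) {z : ℂ} (h : 0 < sg p.2 * z.im) : T.d p (pe p.2 z) = T.A p.1 z := by
  obtain ⟨n, hn⟩ := pe_inj h (lg_pos _ (pe_ne h)) (pe_lg _ _).symm
  rw [d, hn, (T.an _).per]

theorem d_eq {p q : ι × Bool} {w v : ℂ} (hw : w ≠ 0) (hv : v ≠ 0) (e : T.d p w = T.d q v) :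
    p = q ∧ w = v := by
  obtain ⟨i, b⟩ := p
  obtain ⟨k, c⟩ := q
  obtain rfl : i = k := T.eq_of e
  obtain rfl : b = c := sg_eq (lg_pos b hw) ((T.an i).im_eq e ▸ lg_pos c hv)
  obtain ⟨n, hn⟩ := ((T.an i).2 _ _).1 e
  exact ⟨rfl, by rw [← pe_lg b v, hn, pe_per, pe_lg]⟩

theorem ev_pos {b : Bool} {z : ℂ} (h : 0 < sg b * z.im) : ∀ᶠ w in 𝓝 z, 0 < sg b * w.im :=
  (isOpen_lt continuous_const (by fun_prop)).mem_nhds h

theorem pm_d (p : ι × Bool) {w : ℂ} (h : w ≠ 0) : Pm oC X.o (T.d p) w :=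
  pe_lg p.2 w ▸ (pm_pe (lg_pos p.2 h)).of_comp (((T.an p.1).1 _).congr
    ((ev_pos (lg_pos p.2 h)).mono fun _ => T.d_pe p))

/-- the pieces -/
def pc : Option (ι × Bool) → Pc ℂ
  | none => Pc.of IC T.U (.refl ℝ ℂ)
  | some _ => Pc.of IC ℂ (.refl ℝ ℂ)

open Classical in
/-- the discs on the level of sets -/
def kk (p : ι × Bool) (w : ℂ) : X.R ⊕ ι × Bool := if w = 0 then .inr p else .inl (T.d p w)

theorem kk_inl {p : ι × Bool} {w : ℂ} {x : X.R} : .inl x = T.kk p w ↔ w ≠ 0 ∧ x = T.d p w := by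
  unfold kk
  split_ifs with h <;> simp [h]

theorem kk_eq {p q : ι × Bool} {w v : ℂ} (e : T.kk p w = T.kk q v) : p = q ∧ w = v := by
  unfold kk at e
  split_ifs at e with h h' h'
  · exact ⟨Sum.inr_injective e, h.trans h'.symm⟩
  · exact T.d_eq h h' (Sum.inl_injective e)

/-- the pieces on the level of sets -/
def k : ∀ i, (T.pc i).M → X.R ⊕ ι × Bool
  | none => fun x : T.U => .inl x.1
  | some p => T.kk p

theorem k_inj : ∀ i, Injective (T.k i)
  | none => fun _ _ e => Subtype.ext (Sum.inl_injective e)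
  | some _ => fun _ _ e => (T.kk_eq e).2

theorem compat (p : ι × Bool) : Compat IC IC (fun x : T.U => Sum.inl x.1) (T.kk p) := fun x w e => by
  obtain ⟨h, e⟩ := T.kk_inl.1 e
  let H : TopologicalSpace.Opens ℂ := ⟨{z | 0 < sg p.2 * z.im}, isOpen_lt continuous_const (by fun_prop)⟩
  obtain ⟨φ, h1, h2, h3⟩ := exists_pd (N := H) (n := ⟨_, lg_pos p.2 h⟩)
    (j₁ := fun z => (⟨T.A p.1 z, T.not_Z z.2⟩ : T.U)) (j₂ := fun z => pe p.2 z)
    (ld_codRestrict (ld_restrict ((T.an p.1).1 _).1)) (ld_restrict (pm_pe (lg_pos p.2 h)).1)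
  obtain rfl : (⟨T.d p w, T.not_Z (lg_pos p.2 h)⟩ : T.U) = x := Subtype.ext e.symm
  refine ⟨φ, h1, h2.trans (pe_lg _ _), fun z hz => ?_⟩
  obtain ⟨m, rfl, h4⟩ := h3 z hz
  rw [← h4]
  exact (T.kk_inl.2 ⟨pe_ne m.2, (T.d_pe p m.2).symm⟩).symm

/-- the gluing data -/
def gd : GD ℂ (Option (ι × Bool)) :=
  GD.ofMaps T.pc T.k
    (fun
      | none, none => compat_of_injective (T.k_inj none)
      | none, some p => T.compat p
      | some p, none => (T.compat p).symm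
      | some p, some q => fun w v e => by
        obtain ⟨rfl, rfl⟩ := T.kk_eq e
        exact compat_of_injective (T.k_inj (some p)) w w rfl)
    fun i _ => ⟨univ, univ_mem, (T.k_inj i).injOn⟩

/-- the discs -/
def D (i : ι) (b : Bool) (w : ℂ) : T.gd.M := T.gd.inc (some (i, b)) w

theorem closed (p : ι × Bool) : IsClosed {x : T.U × ℂ | .inl x.1.1 = T.kk p x.2} := by
  refine isOpen_compl_iff.1 (isOpen_iff_mem_nhds.2 fun x hx => ?_)
  by_cases h : x.2 = 0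
  · obtain ⟨V, W, hV, hW, h1, h2, h3⟩ := SeparatedNhds.of_isCompact_isCompact isCompact_singleton
      (T.an p.1).isCompact_core (disjoint_singleton_left.2 fun k => x.1.2 (mem_iUnion.2 ⟨_, k⟩))
    obtain ⟨δ, δ0, hδ⟩ := (T.an p.1).tube hW h2
    filter_upwards [(continuous_subtype_val.comp continuous_fst).continuousAt.preimage_mem_nhds
      (hV.mem_nhds (h1 rfl)), continuousAt_snd.preimage_mem_nhds (ball_mem_nhds x.2 δ0)]
      with y a b e
    refine disjoint_left.1 h3 a (mem_of_eq_of_mem (T.kk_inl.1 e).2 (hδ _ ?_))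
    rw [← norm_pe p.2, pe_lg]
    exact mem_ball_zero_iff.1 (h ▸ b :)
  · filter_upwards [((continuous_subtype_val.comp continuous_fst).continuousAt.ne_iff_eventually_ne
      ((T.pm_d p h).1.contMDiffAt.continuousAt.comp continuousAt_snd)).1
      fun e => hx (T.kk_inl.2 ⟨h, e⟩)] with y a e using a (T.kk_inl.1 e).2

instance : T2Space T.gd.M := T.gd.t2Space fun
  | none, none => by
    show IsClosed {x : T.U × T.U | T.k none x.1 = T.k none x.2}
    convert isClosed_diagonal (X := T.U)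
    exact Set.ext fun x => (T.k_inj none).eq_iff
  | none, some p => T.closed p
  | some p, none => (Set.ext fun _ => eq_comm : Prod.swap ⁻¹' {x : T.U × ℂ | .inl x.1.1 = T.kk p x.2} =
      {x : ℂ × T.U | T.kk p x.1 = .inl x.2.1}) ▸ (T.closed p).preimage continuous_swap
  | some p, some q => by
    show IsClosed {x : ℂ × ℂ | T.kk p x.1 = T.kk q x.2}
    by_cases h : p = q
    · subst h
      convert isClosed_diagonal (X := ℂ)
      exact Set.ext fun x => (T.k_inj (some p)).eq_iff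
    · convert isClosed_empty
      exact eq_empty_of_forall_notMem fun x e => h (T.kk_eq e).1

/-- open strips -/
def W (δ : ℝ) : Set X.R := ⋃ i, T.A i '' {z | |z.im| < δ}

theorem isOpen_W (δ : ℝ) : IsOpen (T.W δ) := isOpen_iUnion fun i =>
  isOpenMap_of_pm (T.an i).1 _ (isOpen_lt (by fun_prop) continuous_const)

theorem Z_sub {δ : ℝ} (h : 0 < δ) : T.Z ⊆ T.W δ :=
  iUnion_mono fun _ _ ⟨t, e⟩ => ⟨t, by simpa using h, e⟩

theorem of_W {δ : ℝ} {x : X.R} (h : x ∈ T.W δ) (hx : x ∉ T.Z) :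
    ∃ p w, w ≠ 0 ∧ ‖w‖ < δ ∧ x = T.d p w := by
  obtain ⟨i, z, hz, rfl⟩ := mem_iUnion.1 h
  obtain ⟨b, hb⟩ := exists_sg (mt T.mem_Z.2 hx)
  exact ⟨(i, b), _, pe_ne hb, (norm_pe b z).trans_lt hz, (T.d_pe (i, b) hb).symm⟩

/-- compact parts -/
def K : ∀ i, Set (T.pc i).M
  | none => (Subtype.val ⁻¹' (T.W 1)ᶜ : Set T.U)
  | some _ => (closedBall 0 1 : Set ℂ)

instance : CompactSpace T.gd.M := by
  have h : ∀ x : T.U, ∃ j, ∃ q ∈ T.K j, T.k none x = T.k j q := fun x => by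
    by_cases hx : x.1 ∈ T.W 1
    · obtain ⟨p, w, h1, h2, h3⟩ := T.of_W hx x.2
      exact ⟨some p, w, mem_closedBall_zero_iff.2 h2.le, T.kk_inl.2 ⟨h1, h3⟩⟩
    · exact ⟨none, x, hx, rfl⟩
  refine T.gd.compactSpace T.K (fun
    | none => IsInducing.subtypeVal.isCompact_preimage_iff (K := (T.W 1)ᶜ) (fun x hx =>
        ⟨(⟨x, fun k => hx (T.Z_sub one_pos k)⟩ : T.U), rfl⟩) |>.2 (T.isOpen_W 1).isClosed_compl.isCompact
    | some _ => isCompact_closedBall (0 : ℂ) 1) fun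
    | none, x => h x
    | some p, w => ?_
  by_cases hw : w = (0 : ℂ)
  · exact ⟨some p, w, hw ▸ mem_closedBall_self (x := (0 : ℂ)) zero_le_one, rfl⟩
  · obtain ⟨j, q, h1, h2⟩ := h ⟨T.d p w, T.not_Z (lg_pos _ hw)⟩
    exact ⟨j, q, h1, (T.kk_inl.2 ⟨hw, rfl⟩).symm.trans h2⟩

instance : Nonempty T.gd.M := by
  obtain ⟨x⟩ := X.ne
  by_cases h : x ∈ T.Z
  · exact ⟨T.D (mem_iUnion.1 h).choose true 0⟩
  · exact ⟨T.gd.inc none (⟨x, h⟩ : T.U)⟩

open Classical in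
/-- the collapse -/
def j (x : X.R) : T.gd.M := if h : x ∈ T.Z then Classical.arbitrary _ else T.gd.inc none (⟨x, h⟩ : T.U)

theorem j_eq {x : X.R} (h : x ∉ T.Z) : T.j x = T.gd.inc none (⟨x, h⟩ : T.U) := dif_neg h

theorem ld_j {x : X.R} (h : x ∉ T.Z) : IsLocalDiffeomorphAt IC IC ∞ T.j x :=
  ld_of_comp (ld_val T.U ⟨x, h⟩) (ld_congr (T.gd.ld none (⟨x, h⟩ : T.U))
    (Eventually.of_forall fun y => T.j_eq y.2))

theorem ld_D (i : ι) (b : Bool) : IsLocalDiffeomorph IC IC ∞ (T.D i b) := T.gd.ld (some (i, b))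

theorem j_inj : InjOn T.j T.Zᶜ := fun x hx y hy e => by
  rw [T.j_eq hx, T.j_eq hy] at e
  exact Sum.inl_injective (GD.ofMaps_inc.1 e)

theorem j_eq_D {x : X.R} (h : x ∉ T.Z) {p : ι × Bool} {w : ℂ} :
    T.j x = T.D p.1 p.2 w ↔ w ≠ 0 ∧ x = T.d p w := by
  rw [T.j_eq h]
  exact GD.ofMaps_inc.trans T.kk_inl

theorem j_d (p : ι × Bool) {w : ℂ} (h : w ≠ 0) : T.j (T.d p w) = T.D p.1 p.2 w :=
  (T.j_eq_D (T.not_Z (lg_pos _ h))).2 ⟨h, rfl⟩

theorem D_eq {p q : ι × Bool} {w v : ℂ} (e : T.D p.1 p.2 w = T.D q.1 q.2 v) : p = q ∧ w = v :=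
  T.kk_eq (GD.ofMaps_inc.1 e)

theorem surj (y : T.gd.M) : (∃ x ∉ T.Z, T.j x = y) ∨ ∃ p : ι × Bool, T.D p.1 p.2 0 = y := by
  obtain ⟨_ | p, w, rfl⟩ := T.gd.surj y
  · exact .inl ⟨_, Subtype.property w, T.j_eq _⟩
  · by_cases h : w = (0 : ℂ)
    · exact .inr ⟨p, h ▸ rfl⟩
    · exact .inl ⟨_, T.not_Z (lg_pos _ h), T.j_d p h⟩

open Classical in
/-- the sign -/
def s (y : T.gd.M) : ℝ :=
  if h : ∃ p : ι × Bool, T.D p.1 p.2 0 = y then dt (T.D h.choose.1 h.choose.2) 0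
  else X.o.s (invFunOn T.j T.Zᶜ y) * dt T.j (invFunOn T.j T.Zᶜ y)

theorem s_j {x : X.R} (h : x ∉ T.Z) : 0 < X.o.s x * T.s (T.j x) * dt T.j x := by
  rw [s, dif_neg fun ⟨p, e⟩ => ((T.j_eq_D h).1 e.symm).1 rfl, T.j_inj.leftInvOn_invFunOn h,
    mul_right_comm]
  exact mul_self_pos.2 (mul_ne_zero (X.o.ne x) (dt_ne (T.ld_j h)))

theorem s_D (p : ι × Bool) (w : ℂ) : 0 < oC.s w * T.s (T.D p.1 p.2 w) * dt (T.D p.1 p.2) w := by
  rw [show oC.s w = 1 from rfl, one_mul]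
  by_cases h : w = 0
  · have k : ∃ q : ι × Bool, T.D q.1 q.2 0 = T.D p.1 p.2 w := ⟨p, h ▸ rfl⟩
    rw [s, dif_pos k, (T.D_eq k.choose_spec).1, h]
    exact mul_self_pos.2 (dt_ne (T.ld_D _ _ 0))
  · have k := T.not_Z (i := p.1) (lg_pos p.2 h)
    have k1 := mul_pos (T.s_j k) (T.pm_d p h).2
    rw [← dt_congr (g := T.j ∘ T.d p) ((isOpen_ne.eventually_mem h).mono fun v => T.j_d p),
      dt_comp (f := T.d p) ((T.ld_j k).mdifferentiableAt (by simp)) (T.pm_d p h).mdiff, ← T.j_d p h]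
    exact (pos_iff_pos_of_mul_pos (k1.trans_eq (by simp only [oC, d]; ring) :
      0 < (X.o.s (T.d p w)) ^ 2 * _)).1 (sq_pos_of_ne_zero (X.o.ne _))

/-- the orientation -/
def o : Prf6.Or T.gd.M where
  s := T.s
  loc y := by
    obtain ⟨x, h, rfl⟩ | ⟨p, rfl⟩ := T.surj y
    · exact or_loc X.o (T.ld_j h) (eventually_of_mem (T.isClosed_Z.isOpen_compl.mem_nhds h) fun _ => T.s_j)
    · exact or_loc oC (T.ld_D _ _ 0) (.of_forall (T.s_D p))

/-- the capped surface -/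
def Y : Sf := { R := T.gd.M, o := T.o }

theorem capD : CapD X.o T.o T.A T.j T.D := by
  have st : ∀ i b, St T.o (T.D i b) := fun i b =>
    ⟨fun w => ⟨T.ld_D i b w, T.s_D (i, b) w⟩, fun _ _ e => (T.D_eq (p := (i, b)) (q := (i, b)) e).2⟩
  refine ⟨⟨T.isClosed_Z, finite_range _, fun x h => ⟨T.ld_j h, T.s_j h⟩, ⟨fun x h ⟨p, e⟩ =>
    ((T.j_eq_D h).1 e.symm).1 rfl, T.j_inj, fun y h => (T.surj y).resolve_right h⟩, fun O hO => ?_⟩, st,
    fun p q h => disjoint_left.2 fun _ ⟨w, a⟩ ⟨v, b⟩ => h (T.D_eq (a.trans b.symm)).1,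
    fun i θ r hr => ?_, fun i θ r hr => ?_⟩
  · have h1 : ⋂ p : ι × Bool, T.D p.1 p.2 ⁻¹' O ∈ 𝓝 (0 : ℂ) := iInter_mem.2 fun p =>
      (cont_of_pm (st _ _).1).continuousAt.preimage_mem_nhds (mem_nhdsSet_iff_forall.1 hO _ ⟨p, rfl⟩)
    obtain ⟨δ, δ0, hδ⟩ := Metric.mem_nhds_iff.1 h1
    refine mem_of_superset ((T.isOpen_W δ).mem_nhdsSet.2 (T.Z_sub δ0)) fun x hx => ?_
    refine (em (x ∈ T.Z)).symm.imp_left fun h => ?_
    obtain ⟨p, w, h1, h2, rfl⟩ := T.of_W hx h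
    rw [mem_preimage, T.j_d p h1]
    exact mem_iInter.1 (hδ (mem_ball_zero_iff.2 h2)) p
  · have h : 0 < sg true * (θ + r * I : ℂ).im := by simpa [sg]
    rw [← T.d_pe (i, true) h, T.j_d _ (pe_ne h)]
    simp [pe, sg]
  · have h : 0 < sg false * (θ - r * I : ℂ).im := by simpa [sg]
    rw [← T.d_pe (i, false) h, T.j_d _ (pe_ne h)]
    simp [pe, sg]

end Dat

/-- **CAP** -/
theorem cap : Prf6.Cap := fun X ι _ A hA hd =>
  let T : Dat X ι := ⟨A, hA, hd⟩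
  ⟨T.Y, T.j, T.D, T.capD⟩

end Crest.Agent.X212.Cap52
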